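import Vale.Agent.P139.R2.H36.Rem

/-!
# P139, row R8c (stage 2): the bound of the remainder, constant polynomial in `K`, `C0`
-/

set_option autoImplicit false

open MvPolynomial Finset
open scoped ComplexConjugate

namespace Vale.Agent.P139.BN.R8

open Vale.Agent.P139.A Vale.Agent.P139.A.WA R7

/-- **Row R8c, stage 2.** -/
theorem rem_boundQ (d m q : ℕ) (hq : d ≤ q) :
    ∃ (D : ℝ) (a : ℕ), 1 ≤ D ∧ ∀ (K C0 : ℝ), 1 ≤ K → 1 ≤ C0 →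
    ∀ (N Lt : ℕ), Lt = N + 1 → ∀ (B : Finset (Lat d)), (0 : Lat d) ∉ B →
    ∀ (W pw : Lat d → ℝ), (∀ n, 1 ≤ W n) → (∀ n, W (-n) = W n) →
      (∀ a b, W (a + b) ≤ W a * W b) → (∀ n, pw n = (1 + sqNorm n) ^ q) →
    ∀ (c cs : {n // n ∈ B} × Bool → ℂ), (∀ v, ‖c v‖ ≤ K) → (∀ v, ‖cs v‖ ≤ K) →
    ∀ (z : {n // n ∈ B} → ℂ) (s : ℝ), 0 ≤ s →
      eval (pt z) (G (fun n : {n // n ∈ B} => n.1) c cs 1 1) = s →
      nw (fun n : {n // n ∈ B} => W n.1 * pw n.1) (pt z) ≤ 1 →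
    ∀ (u₁ u₂ : ℕ → ℂ), (∀ r ≤ 2 * m + 2, ‖u₁ r‖ ≤ C0 ^ (Lt + 1) * s ^ (Lt + 1)) →
      (∀ r ≤ 2 * m + 2, ‖u₂ r‖ ≤ C0 ^ (Lt + 1) * s ^ Lt) →
    ∀ (e : ℂ), ‖e‖ ≤ 1 → ∀ ρ : {n // n ∈ B} → ℂ,
      (∀ n, ρ n = e * ∑ a ∈ range (m + 2), ∑ b ∈ range (m + 2), (cf m a b : ℂ) *
        (u₁ (2 * m + 2 - a - b) *
            eval (pt z) (pderiv (n, false) (G (fun n : {n // n ∈ B} => n.1) c cs a b)) +
          u₂ (2 * m + 2 - a - b) *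
            eval (pt z) (pderiv (n, false) (G (fun n : {n // n ∈ B} => n.1) c cs 1 1)) *
            eval (pt z) (G (fun n : {n // n ∈ B} => n.1) c cs a b))) →
      nw (fun n : {n // n ∈ B} => W n.1 * pw n.1) (pt ρ) ≤
        ((D * K * C0) ^ a) ^ (N + 1) *
          nw (fun n : {n // n ∈ B} => W n.1 * pw n.1) (pt z) ^ (N + 2) := by
  obtain ⟨A₁, hA₁, h⟩ := rem_boundE d m q hq
  exact ⟨A₁, 6 * m + 7, hA₁, h⟩

end Vale.Agent.P139.BN.R8
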